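import Vale.Agent.P181.H385.Defs
import Vale.Agent.P181.Z.H592.Real

set_option autoImplicit false

/-!
# P181: multiplication by a highest weight vector
-/

namespace Vale.Agent.P181.H248

open MvPolynomial Vale.Agent.P181 Vale.Agent.P181.H280 Vale.Agent.P181.Z.H592

/-- Multiplication by a highest weight vector in the symmetric algebra of `Sym^a ℂ^n`. -/
theorem rhsMul : H385.RhsMul := by
  intro n a b k mu nu h
  rw [plethMult_eq_HA] at h
  rw [plethMult_eq_HA, plethMult_eq_HA]
  obtain ⟨g, hg⟩ : ∃ g : HA n k a nu, g ≠ 0 := by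
    by_contra hne
    push Not at hne
    have h1 : Module.finrank ℂ (HA n k a nu) = 0 := by
      have : Subsingleton (HA n k a nu) := ⟨fun x y => by rw [hne x, hne y]⟩
      exact Module.finrank_zero_of_subsingleton
    omega
  have hg0 : (g : A n) ≠ 0 := fun h' => hg (Subtype.ext h')
  let L : HA n b a mu →ₗ[ℂ] HA n (b + k) a (fun i => mu i + nu i) :=
    (LinearMap.mulRight ℂ (g : A n)).restrict (fun f hf => by
      rw [LinearMap.mulRight_apply]
      exact mul_mem_HA hf g.2)
  refine LinearMap.finrank_le_finrank_of_injective (f := L) ?_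
  intro x y hxy
  have h1 : (x : A n) * (g : A n) = (y : A n) * (g : A n) := congrArg Subtype.val hxy
  exact Subtype.ext (mul_right_cancel₀ hg0 h1)

end Vale.Agent.P181.H248
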